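import Vale.Agent.P123.Lower

universe u

/-- Crouzeix's conjecture: the least admissible constant is `2`.  Mathlib's inner product is
linear in the second argument, so `inner ℂ x (A x)` is the usual value of the numerical range. -/
theorem Vale.Agent.Results.P123.Crouzeix.result :
    IsLeast {C : ℝ | ∀ (H : Type u) [NormedAddCommGroup H] [InnerProductSpace ℂ H]
      [CompleteSpace H] [Nontrivial H] (A : H →L[ℂ] H) (P : Polynomial ℂ),
      ‖Polynomial.aeval A P‖ ≤
        C * sSup ((fun z : ℂ => ‖P.eval z‖) '' {z : ℂ | ∃ x : H, ‖x‖ = 1 ∧ z = inner ℂ x (A x)})}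
      2 :=
  ⟨fun _ _ _ _ _ A P => Vale.Agent.P123.crouzeix A P, fun C hC => Vale.Agent.P123.lower C hC⟩
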